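import Mathlib

namespace Vale.Agent.H33

open Polynomial

/-- Quotient of `g` by the linear factor at a root `τ`: its value at `τ` is `g'(τ)`. -/
theorem eval_divByMonic_self (g : ℂ[X]) (τ : ℂ) (hτ : g.eval τ = 0) :
    (g /ₘ (X - C τ)).eval τ = g.derivative.eval τ := by
  have h : (X - C τ) * (g /ₘ (X - C τ)) = g := mul_divByMonic_eq_iff_isRoot.2 hτ
  have h2 : g.derivative.eval τ = ((X - C τ) * (g /ₘ (X - C τ))).derivative.eval τ := by rw [h]
  rw [h2]
  simp [derivative_mul]

/-- Quotient of `g` by the linear factor at a root `σ` vanishes at every other root. -/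
theorem eval_divByMonic_other (g : ℂ[X]) (σ τ : ℂ) (hσ : g.eval σ = 0) (hτ : g.eval τ = 0)
    (hne : σ ≠ τ) : (g /ₘ (X - C σ)).eval τ = 0 := by
  have h : (X - C σ) * (g /ₘ (X - C σ)) = g := mul_divByMonic_eq_iff_isRoot.2 hσ
  have h2 : ((X - C σ) * (g /ₘ (X - C σ))).eval τ = 0 := by rw [h]; exact hτ
  simp only [eval_mul, eval_sub, eval_X, eval_C] at h2
  rcases mul_eq_zero.1 h2 with h3 | h3
  · exact absurd (sub_eq_zero.1 h3).symm hne
  · exact h3

theorem roots_nodup_of_simple (g : ℂ[X]) (hg : g ≠ 0)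
    (hsimple : ∀ σ : ℂ, g.eval σ = 0 → g.derivative.eval σ ≠ 0) : g.roots.Nodup := by
  classical
  rw [Multiset.nodup_iff_count_le_one]
  intro a
  rw [count_roots]
  by_contra hcon
  have := (one_lt_rootMultiplicity_iff_isRoot hg).1 (not_le.1 hcon)
  exact hsimple a this.1 this.2

/-- Lagrange identity over the roots of a complex polynomial with simple roots. -/
theorem lagrange_sum_eq_one (g : ℂ[X]) (hdeg : 0 < g.natDegree)
    (hsimple : ∀ σ : ℂ, g.eval σ = 0 → g.derivative.eval σ ≠ 0) :
    ∑ σ ∈ g.roots.toFinset, C (g.derivative.eval σ)⁻¹ * (g /ₘ (X - C σ)) = 1 := by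
  classical
  have hg : g ≠ 0 := by
    rintro rfl
    simp at hdeg
  have hnodup := roots_nodup_of_simple g hg hsimple
  have hcard : g.roots.toFinset.card = g.natDegree := by
    rw [Multiset.toFinset_card_of_nodup hnodup]
    exact IsAlgClosed.card_roots_eq_natDegree
  rw [← sub_eq_zero]
  apply eq_zero_of_natDegree_lt_card_of_eval_eq_zero' _ g.roots.toFinset
  · intro τ hτ
    have hτ0 : g.eval τ = 0 := by
      have := (Multiset.mem_toFinset.1 hτ)
      exact (mem_roots hg).1 this
    rw [eval_sub, eval_finsetSum, eval_one, sub_eq_zero]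
    rw [Finset.sum_eq_single τ]
    · rw [eval_mul, eval_C, eval_divByMonic_self g τ hτ0]
      exact inv_mul_cancel₀ (hsimple τ hτ0)
    · intro σ hσ hne
      have hσ0 : g.eval σ = 0 := (mem_roots hg).1 (Multiset.mem_toFinset.1 hσ)
      rw [eval_mul, eval_divByMonic_other g σ τ hσ0 hτ0 hne, mul_zero]
    · intro h
      exact absurd hτ h
  · rw [hcard]
    have h1 : (∑ σ ∈ g.roots.toFinset, C (g.derivative.eval σ)⁻¹ * (g /ₘ (X - C σ))).natDegree
        ≤ g.natDegree - 1 := by
      apply natDegree_sum_le_of_forall_le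
      intro σ _
      refine (natDegree_C_mul_le _ _).trans ?_
      rw [natDegree_divByMonic g (monic_X_sub_C σ), natDegree_X_sub_C]
    have h2 : (∑ σ ∈ g.roots.toFinset, C (g.derivative.eval σ)⁻¹ * (g /ₘ (X - C σ)) - 1).natDegree
        ≤ g.natDegree - 1 := by
      refine (natDegree_sub_le _ _).trans ?_
      simp only [natDegree_one]
      exact max_le h1 (Nat.zero_le _)
    omega

end Vale.Agent.H33
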