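import Mathlib

namespace Vale.Agent.H33

open Polynomial Filter Topology

/-- A real function with positive derivative at `0` exceeds its value at `0` somewhere in the open unit interval. -/
theorem exists_gt_of_hasDerivAt_pos (ψ : ℝ → ℝ) (c : ℝ) (h : HasDerivAt ψ c 0) (hc : 0 < c) :
    ∃ t : ℝ, 0 < t ∧ t < 1 ∧ ψ 0 < ψ t := by
  have h1 : Tendsto (slope ψ 0) (𝓝[≠] 0) (𝓝 c) := hasDerivAt_iff_tendsto_slope.mp h
  have h2 : ∀ᶠ t in 𝓝[≠] (0 : ℝ), 0 < slope ψ 0 t := h1.eventually (eventually_gt_nhds hc)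
  have h3 : ∀ᶠ t in 𝓝[>] (0 : ℝ), 0 < slope ψ 0 t := h2.filter_mono (nhdsGT_le_nhdsNE 0)
  have h4 : ∀ᶠ t in 𝓝[>] (0 : ℝ), t ∈ Set.Ioo (0 : ℝ) 1 :=
    Ioo_mem_nhdsGT (by norm_num : (0 : ℝ) < 1)
  obtain ⟨t, ht1, ht2⟩ := (h3.and h4).exists
  refine ⟨t, ht2.1, ht2.2, ?_⟩
  have h5 : 0 < (ψ t - ψ 0) / (t - 0) := by
    have := ht1
    rw [slope_def_field] at this
    exact this
  have h6 : 0 < t - 0 := by linarith [ht2.1]
  have h7 : 0 < ψ t - ψ 0 := by
    by_contra hcon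
    have h8 : ψ t - ψ 0 ≤ 0 := not_lt.1 hcon
    have h9 : (ψ t - ψ 0) / (t - 0) ≤ 0 := div_nonpos_of_nonpos_of_nonneg h8 h6.le
    linarith
  linarith

/-- Supporting half-plane of a convex sublevel set `{|f| ≤ M}` of a polynomial at a boundary
point `σ` with `f σ = M ζ`, `|ζ| = 1`: every point `z` of the set satisfies
`Re (conj ζ * f'(σ) * (z - σ)) ≤ 0`. -/
theorem tangent_halfplane (f : ℂ[X]) (M : ℝ)
    (hconv : Convex ℝ {z : ℂ | ‖f.eval z‖ ≤ M}) (ζ σ z : ℂ) (hζ : ‖ζ‖ = 1)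
    (hσ : f.eval σ = (M : ℂ) * ζ) (hz : ‖f.eval z‖ ≤ M) :
    ((starRingEnd ℂ ζ) * (f.derivative.eval σ * (z - σ))).re ≤ 0 := by
  by_contra hcon
  have hpos : 0 < ((starRingEnd ℂ ζ) * (f.derivative.eval σ * (z - σ))).re := not_le.1 hcon
  have hM0 : 0 ≤ M := le_trans (norm_nonneg _) hz
  have hσmem : ‖f.eval σ‖ ≤ M := by
    rw [hσ, norm_mul, hζ, mul_one, Complex.norm_real, Real.norm_eq_abs, abs_of_nonneg hM0]
  -- the complex function s ↦ conj ζ * f (σ + s (z - σ))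
  have hd1 : HasDerivAt (fun s : ℂ => σ + s * (z - σ)) (z - σ) 0 := by
    simpa using ((hasDerivAt_id (0 : ℂ)).mul_const (z - σ)).const_add σ
  have hd2 : HasDerivAt (fun s : ℂ => f.eval (σ + s * (z - σ)))
      (f.derivative.eval (σ + 0 * (z - σ)) * (z - σ)) 0 := by
    have h := HasDerivAt.comp (h₂ := fun x : ℂ => f.eval x) (0 : ℂ)
      (f.hasDerivAt (σ + 0 * (z - σ))) hd1
    exact h
  have hd3 : HasDerivAt (fun s : ℂ => (starRingEnd ℂ ζ) * f.eval (σ + s * (z - σ)))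
      ((starRingEnd ℂ ζ) * (f.derivative.eval σ * (z - σ))) 0 := by
    have := hd2.const_mul (starRingEnd ℂ ζ)
    simpa using this
  have hd4 : HasDerivAt (fun t : ℝ => ((starRingEnd ℂ ζ) * f.eval (σ + (t : ℂ) * (z - σ))).re)
      ((starRingEnd ℂ ζ) * (f.derivative.eval σ * (z - σ))).re 0 := by
    have h0 : HasDerivAt (fun s : ℂ => (starRingEnd ℂ ζ) * f.eval (σ + s * (z - σ)))
      ((starRingEnd ℂ ζ) * (f.derivative.eval σ * (z - σ))) ((0 : ℝ) : ℂ) := by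
      simpa using hd3
    exact h0.real_of_complex
  obtain ⟨t, ht0, ht1, hlt⟩ := exists_gt_of_hasDerivAt_pos _ _ hd4 hpos
  -- value at 0 is M
  have hval0 : ((starRingEnd ℂ ζ) * f.eval (σ + ((0 : ℝ) : ℂ) * (z - σ))).re = M := by
    have h1 : (starRingEnd ℂ ζ) * ζ = 1 := by
      rw [mul_comm, Complex.mul_conj, Complex.normSq_eq_norm_sq, hζ]
      simp
    have h2 : (starRingEnd ℂ ζ) * f.eval (σ + ((0 : ℝ) : ℂ) * (z - σ)) = (M : ℂ) := by
      simp only [Complex.ofReal_zero, zero_mul, add_zero, hσ]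
      calc (starRingEnd ℂ ζ) * ((M : ℂ) * ζ) = (M : ℂ) * ((starRingEnd ℂ ζ) * ζ) := by ring
        _ = (M : ℂ) := by rw [h1, mul_one]
    rw [h2]
    simp
  -- the point on the segment lies in the sublevel set
  have hmem : ‖f.eval (σ + (t : ℂ) * (z - σ))‖ ≤ M := by
    have hseg : (1 - t) • σ + t • z ∈ {z : ℂ | ‖f.eval z‖ ≤ M} :=
      hconv hσmem hz (by linarith) ht0.le (by ring)
    have heq : (1 - t) • σ + t • z = σ + (t : ℂ) * (z - σ) := by
      simp only [Complex.real_smul]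
      push_cast
      ring
    rw [heq] at hseg
    exact hseg
  have hle : ((starRingEnd ℂ ζ) * f.eval (σ + (t : ℂ) * (z - σ))).re ≤ M := by
    refine le_trans (Complex.re_le_norm _) ?_
    rw [norm_mul, RCLike.norm_conj, hζ, one_mul]
    exact hmem
  rw [hval0] at hlt
  linarith

end Vale.Agent.H33
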