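import Mathlib
import Vale.Agent.H33.Lagr
import Vale.Agent.H33.Tang

namespace Vale.Agent.H33

open Polynomial

variable {H : Type*} [NormedAddCommGroup H] [InnerProductSpace ℂ H]

theorem aeval_mul_apply (A : H →L[ℂ] H) (p q : ℂ[X]) (y : H) :
    aeval A (p * q) y = aeval A p (aeval A q y) := by
  rw [map_mul]
  rfl

theorem aeval_C_apply (A : H →L[ℂ] H) (c : ℂ) (y : H) :
    aeval A (C c) y = c • y := by
  rw [aeval_C, Algebra.algebraMap_eq_smul_one]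
  rfl

theorem aeval_X_sub_C_apply (A : H →L[ℂ] H) (σ : ℂ) (y : H) :
    aeval A (X - C σ) y = A y - σ • y := by
  rw [map_sub, aeval_X, sub_apply, aeval_C_apply]

/-- The supporting half-plane inequality, in vector form. -/
theorem tangent_vec (A : H →L[ℂ] H) (f : ℂ[X]) (M : ℝ)
    (hconv : Convex ℝ {z : ℂ | ‖f.eval z‖ ≤ M})
    (hW : ∀ x : H, ‖x‖ = 1 → ‖f.eval (inner ℂ x (A x))‖ ≤ M)
    (ζ σ : ℂ) (hζ : ‖ζ‖ = 1) (hσ : f.eval σ = (M : ℂ) * ζ) (v : H) :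
    ((starRingEnd ℂ ζ) * (f.derivative.eval σ * (inner ℂ v (A v - σ • v)))).re ≤ 0 := by
  by_cases hv : v = 0
  · subst hv
    simp
  have hvn : ‖v‖ ≠ 0 := norm_ne_zero_iff.2 hv
  have hvpos : 0 < ‖v‖ := norm_pos_iff.2 hv
  set x : H := ((‖v‖⁻¹ : ℝ) : ℂ) • v with hx
  have hxn : ‖x‖ = 1 := by
    rw [hx, norm_smul, Complex.norm_real, Real.norm_eq_abs, abs_of_pos (inv_pos.2 hvpos),
      inv_mul_cancel₀ hvn]
  have hz := hW x hxn
  have htan := tangent_halfplane f M hconv ζ σ (inner ℂ x (A x)) hζ hσ hz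
  have hinner : inner ℂ x (A x) = ((‖v‖⁻¹ : ℝ) : ℂ) ^ 2 * inner ℂ v (A v) := by
    rw [hx, map_smul, inner_smul_left, inner_smul_right, Complex.conj_ofReal]
    ring
  have hvv : inner ℂ v (A v - σ • v) = ((‖v‖ : ℝ) : ℂ) ^ 2 * (inner ℂ x (A x) - σ) := by
    rw [hinner, inner_sub_right, inner_smul_right, inner_self_eq_norm_sq_to_K]
    have h1 : ((‖v‖ : ℝ) : ℂ) ≠ 0 := by exact_mod_cast hvn
    push_cast
    field_simp
    rfl
  rw [hvv]
  have hre : (starRingEnd ℂ ζ) * (f.derivative.eval σ * (((‖v‖ : ℝ) : ℂ) ^ 2 * (inner ℂ x (A x) - σ)))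
      = ((‖v‖ ^ 2 : ℝ) : ℂ) * ((starRingEnd ℂ ζ) * (f.derivative.eval σ * (inner ℂ x (A x) - σ))) := by
    push_cast
    ring
  rw [hre, Complex.re_ofReal_mul]
  exact mul_nonpos_of_nonneg_of_nonpos (sq_nonneg _) htan

/-- For a direction `ζ` on the unit circle such that `f - M ζ` has only simple roots,
`Re (conj ζ ⟨y, f(A) y⟩) ≤ M ‖y‖²`. -/
theorem key_good (A : H →L[ℂ] H) (f : ℂ[X]) (M : ℝ) (hdeg : 0 < f.natDegree)
    (hconv : Convex ℝ {z : ℂ | ‖f.eval z‖ ≤ M})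
    (hW : ∀ x : H, ‖x‖ = 1 → ‖f.eval (inner ℂ x (A x))‖ ≤ M)
    (ζ : ℂ) (hζ : ‖ζ‖ = 1)
    (hgood : ∀ σ : ℂ, f.eval σ = (M : ℂ) * ζ → f.derivative.eval σ ≠ 0)
    (y : H) :
    ((starRingEnd ℂ ζ) * inner ℂ y (aeval A f y)).re ≤ M * ‖y‖ ^ 2 := by
  classical
  set g : ℂ[X] := f - C ((M : ℂ) * ζ) with hg
  have hgdeg : g.natDegree = f.natDegree := natDegree_sub_C
  have hgder : g.derivative = f.derivative := by simp [hg]
  have hgeval : ∀ σ, g.eval σ = f.eval σ - (M : ℂ) * ζ := by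
    intro σ
    simp [hg]
  have hroot : ∀ σ : ℂ, g.eval σ = 0 → f.eval σ = (M : ℂ) * ζ := by
    intro σ h
    rw [hgeval σ] at h
    exact sub_eq_zero.1 h
  have hsimple : ∀ σ : ℂ, g.eval σ = 0 → g.derivative.eval σ ≠ 0 := by
    intro σ h
    rw [hgder]
    exact hgood σ (hroot σ h)
  have hg0 : g ≠ 0 := by
    intro h0
    rw [h0] at hgdeg
    simp at hgdeg
    omega
  have hsum := lagrange_sum_eq_one g (hgdeg ▸ hdeg) hsimple
  set u : H := aeval A g y with hu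
  have hy : y = ∑ σ ∈ g.roots.toFinset,
      (g.derivative.eval σ)⁻¹ • aeval A (g /ₘ (X - C σ)) y := by
    have h1 : aeval A (∑ σ ∈ g.roots.toFinset, C (g.derivative.eval σ)⁻¹ * (g /ₘ (X - C σ))) y
        = y := by
      rw [hsum]
      simp
    rw [map_sum, sum_apply] at h1
    conv_lhs => rw [← h1]
    apply Finset.sum_congr rfl
    intro σ _
    rw [aeval_mul_apply, aeval_C_apply]
  have hk : ∀ σ ∈ g.roots.toFinset,
      A ((g.derivative.eval σ)⁻¹ • aeval A (g /ₘ (X - C σ)) y)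
        - σ • ((g.derivative.eval σ)⁻¹ • aeval A (g /ₘ (X - C σ)) y)
        = (g.derivative.eval σ)⁻¹ • u := by
    intro σ hσ
    have hσ0 : g.eval σ = 0 := (mem_roots hg0).1 (Multiset.mem_toFinset.1 hσ)
    have hmul : (X - C σ) * (g /ₘ (X - C σ)) = g := mul_divByMonic_eq_iff_isRoot.2 hσ0
    rw [← aeval_X_sub_C_apply, map_smul, ← aeval_mul_apply, hmul]
  have hterm : ∀ σ ∈ g.roots.toFinset,
      ((starRingEnd ℂ ζ) *
        inner ℂ ((g.derivative.eval σ)⁻¹ • aeval A (g /ₘ (X - C σ)) y) u).re ≤ 0 := by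
    intro σ hσ
    have hσ0 : g.eval σ = 0 := (mem_roots hg0).1 (Multiset.mem_toFinset.1 hσ)
    have hfσ := hroot σ hσ0
    have hne : f.derivative.eval σ ≠ 0 := hgood σ hfσ
    have ht := tangent_vec A f M hconv hW ζ σ hζ hfσ
      ((g.derivative.eval σ)⁻¹ • aeval A (g /ₘ (X - C σ)) y)
    rw [hk σ hσ, inner_smul_right, hgder] at ht
    have heq : (starRingEnd ℂ ζ) * (f.derivative.eval σ * ((f.derivative.eval σ)⁻¹ *
        inner ℂ ((f.derivative.eval σ)⁻¹ • aeval A (g /ₘ (X - C σ)) y) u))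
        = (starRingEnd ℂ ζ) *
          inner ℂ ((f.derivative.eval σ)⁻¹ • aeval A (g /ₘ (X - C σ)) y) u := by
      field_simp
    rw [heq] at ht
    rw [hgder]
    exact ht
  have hsumle : ((starRingEnd ℂ ζ) * inner ℂ y u).re ≤ 0 := by
    conv_lhs => rw [hy]
    rw [sum_inner, Finset.mul_sum, Complex.re_sum]
    exact Finset.sum_nonpos hterm
  have hu2 : u = aeval A f y - ((M : ℂ) * ζ) • y := by
    rw [hu, hg, map_sub, sub_apply, aeval_C_apply]
  have h1 : (starRingEnd ℂ ζ) * ζ = 1 := by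
    rw [mul_comm, Complex.mul_conj, Complex.normSq_eq_norm_sq, hζ]
    simp
  have hfin : (starRingEnd ℂ ζ) * inner ℂ y u
      = (starRingEnd ℂ ζ) * inner ℂ y (aeval A f y) - ((M * ‖y‖ ^ 2 : ℝ) : ℂ) := by
    rw [hu2, inner_sub_right, inner_smul_right, inner_self_eq_norm_sq_to_K]
    push_cast
    calc (starRingEnd ℂ ζ) * (inner ℂ y (aeval A f y) - (M : ℂ) * ζ * (‖y‖ : ℂ) ^ 2)
        = (starRingEnd ℂ ζ) * inner ℂ y (aeval A f y)
          - (M : ℂ) * (‖y‖ : ℂ) ^ 2 * ((starRingEnd ℂ ζ) * ζ) := by ring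
      _ = (starRingEnd ℂ ζ) * inner ℂ y (aeval A f y) - (M : ℂ) * (‖y‖ : ℂ) ^ 2 := by
          rw [h1, mul_one]
  rw [hfin, Complex.sub_re, Complex.ofReal_re] at hsumle
  linarith

end Vale.Agent.H33
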