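import Mathlib
import Vale.Agent.H33.Key

namespace Vale.Agent.H33

open Polynomial

variable {H : Type*} [NormedAddCommGroup H] [InnerProductSpace ℂ H]

theorem inner_self_C (v : H) : inner ℂ v v = ((‖v‖ : ℝ) : ℂ) ^ 2 :=
  inner_self_eq_norm_sq_to_K v

/-- Any finite set of complex numbers misses some point `ζ0 * exp (t i)` with `0 < t < t0`. -/
theorem exists_rot_notMem (ζ0 : ℂ) (hζ0 : ζ0 ≠ 0) (t0 : ℝ) (ht0 : 0 < t0) (ht1 : t0 ≤ 1)
    (B : Finset ℂ) :
    ∃ t : ℝ, 0 < t ∧ t < t0 ∧ ζ0 * Complex.exp ((t : ℂ) * Complex.I) ∉ B := by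
  have hinj : Set.InjOn (fun t : ℝ => ζ0 * Complex.exp ((t : ℂ) * Complex.I)) (Set.Ioo 0 t0) := by
    intro s hs t ht hst
    have h1 : Complex.exp ((s : ℂ) * Complex.I) = Complex.exp ((t : ℂ) * Complex.I) :=
      mul_left_cancel₀ hζ0 hst
    have h2 : Real.cos s = Real.cos t := by
      rw [← Complex.exp_ofReal_mul_I_re, ← Complex.exp_ofReal_mul_I_re, h1]
    have hpi : (1 : ℝ) ≤ Real.pi := by linarith [Real.pi_gt_three]
    exact Real.injOn_cos ⟨hs.1.le, by linarith [hs.2]⟩ ⟨ht.1.le, by linarith [ht.2]⟩ h2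
  have hinf : ((fun t : ℝ => ζ0 * Complex.exp ((t : ℂ) * Complex.I)) '' (Set.Ioo 0 t0)).Infinite :=
    (Set.Ioo_infinite ht0).image hinj
  obtain ⟨ζ, hζ, hζB⟩ := hinf.exists_notMem_finset B
  obtain ⟨t, ht, rfl⟩ := hζ
  exact ⟨t, ht.1, ht.2, hζB⟩

/-- If `Re (conj ζ * w) ≤ M` for all unimodular `ζ` outside a finite set then `|w| ≤ M`. -/
theorem norm_le_of_re_le_cofinite (w : ℂ) (M : ℝ) (B : Finset ℂ)
    (h : ∀ ζ : ℂ, ‖ζ‖ = 1 → ζ ∉ B → ((starRingEnd ℂ ζ) * w).re ≤ M) : ‖w‖ ≤ M := by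
  by_contra hcon
  have hlt : M < ‖w‖ := not_le.1 hcon
  by_cases hw : w = 0
  · subst hw
    obtain ⟨t, _, _, htB⟩ := exists_rot_notMem 1 one_ne_zero 1 one_pos le_rfl B
    have h1 := h _ (by rw [one_mul]; exact Complex.norm_exp_ofReal_mul_I t) htB
    simp at h1
    simp at hlt
    linarith
  have hwpos : 0 < ‖w‖ := norm_pos_iff.2 hw
  set r : ℝ := M / ‖w‖ with hr
  have hr1 : r < 1 := by
    rw [hr, div_lt_one hwpos]
    exact hlt
  set t0 : ℝ := min 1 (1 - r) with ht0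
  have ht0pos : 0 < t0 := lt_min one_pos (by linarith)
  have hζ0 : (w / (‖w‖ : ℂ)) ≠ 0 := by
    apply div_ne_zero hw
    exact_mod_cast hwpos.ne'
  obtain ⟨t, htpos, htlt, htB⟩ := exists_rot_notMem (w / (‖w‖ : ℂ)) hζ0 t0 ht0pos (min_le_left _ _) B
  have hnorm : ‖w / (‖w‖ : ℂ) * Complex.exp ((t : ℂ) * Complex.I)‖ = 1 := by
    rw [norm_mul, Complex.norm_exp_ofReal_mul_I, mul_one, norm_div, Complex.norm_real,
      norm_norm, div_self hwpos.ne']
  have h1 := h _ hnorm htB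
  have hcalc : (starRingEnd ℂ (w / (‖w‖ : ℂ) * Complex.exp ((t : ℂ) * Complex.I))) * w
      = (‖w‖ : ℂ) * Complex.exp (((-t : ℝ) : ℂ) * Complex.I) := by
    have hww : (starRingEnd ℂ w) * w = (‖w‖ : ℂ) ^ 2 := by
      rw [mul_comm, Complex.mul_conj, Complex.normSq_eq_norm_sq]
      push_cast
      rfl
    have hne : (‖w‖ : ℂ) ≠ 0 := by exact_mod_cast hwpos.ne'
    rw [map_mul, map_div₀, Complex.conj_ofReal, ← Complex.exp_conj]
    have hexp : (starRingEnd ℂ) ((t : ℂ) * Complex.I) = ((-t : ℝ) : ℂ) * Complex.I := by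
      rw [map_mul, Complex.conj_ofReal, Complex.conj_I]
      push_cast
      ring
    rw [hexp]
    calc (starRingEnd ℂ) w / (‖w‖ : ℂ) * Complex.exp (((-t : ℝ) : ℂ) * Complex.I) * w
        = ((starRingEnd ℂ) w * w) / (‖w‖ : ℂ) * Complex.exp (((-t : ℝ) : ℂ) * Complex.I) := by ring
      _ = (‖w‖ : ℂ) * Complex.exp (((-t : ℝ) : ℂ) * Complex.I) := by
          rw [hww]
          field_simp
  rw [hcalc, Complex.re_ofReal_mul, Complex.exp_ofReal_mul_I_re, Real.cos_neg] at h1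
  have hcos : 1 - t ^ 2 / 2 ≤ Real.cos t := Real.one_sub_sq_div_two_le_cos
  have ht_le1 : t < 1 := lt_of_lt_of_le htlt (min_le_left _ _)
  have ht_le2 : t < 1 - r := lt_of_lt_of_le htlt (min_le_right _ _)
  have hcos2 : r < Real.cos t := by nlinarith
  have hM : M = ‖w‖ * r := by
    rw [hr]
    field_simp
  have : ‖w‖ * r < ‖w‖ * Real.cos t := mul_lt_mul_of_pos_left hcos2 hwpos
  linarith

/-- Main numerical-range mapping statement for degree at least one and `M > 0`. -/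
theorem numRadius_le_pos (A : H →L[ℂ] H) (f : ℂ[X]) (M : ℝ) (hM : 0 < M) (hdeg : 0 < f.natDegree)
    (hconv : Convex ℝ {z : ℂ | ‖f.eval z‖ ≤ M})
    (hW : ∀ x : H, ‖x‖ = 1 → ‖f.eval (inner ℂ x (A x))‖ ≤ M)
    (y : H) (hy : ‖y‖ = 1) : ‖inner ℂ y (aeval A f y)‖ ≤ M := by
  classical
  apply norm_le_of_re_le_cofinite _ M
    (f.derivative.roots.toFinset.image (fun σ => f.eval σ / (M : ℂ)))
  intro ζ hζ hζB
  have hgood : ∀ σ : ℂ, f.eval σ = (M : ℂ) * ζ → f.derivative.eval σ ≠ 0 := by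
    intro σ hσ hder
    apply hζB
    rw [Finset.mem_image]
    refine ⟨σ, ?_, ?_⟩
    · rw [Multiset.mem_toFinset, mem_roots]
      · exact hder
      · intro h0
        have := derivative_eq_zero.1 h0
        omega
    · rw [hσ]
      have hMne : (M : ℂ) ≠ 0 := by exact_mod_cast hM.ne'
      field_simp
  have := key_good A f M hdeg hconv hW ζ hζ hgood y
  rw [hy] at this
  simpa using this

/-- The degenerate level `M = 0`. -/
theorem numRadius_le_zero (A : H →L[ℂ] H) (f : ℂ[X]) (hdeg : 0 < f.natDegree)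
    (hconv : Convex ℝ {z : ℂ | ‖f.eval z‖ ≤ 0})
    (hW : ∀ x : H, ‖x‖ = 1 → ‖f.eval (inner ℂ x (A x))‖ ≤ 0)
    (y : H) (hy : ‖y‖ = 1) : ‖inner ℂ y (aeval A f y)‖ ≤ 0 := by
  have hf0 : f ≠ 0 := by
    rintro rfl
    simp at hdeg
  set z0 : ℂ := inner ℂ y (A y) with hz0
  have hz0mem : ‖f.eval z0‖ ≤ 0 := hW y hy
  -- all values of the quadratic form on unit vectors coincide
  have hall : ∀ x : H, ‖x‖ = 1 → inner ℂ x (A x) = z0 := by
    intro x hx
    by_contra hne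
    have hxmem : ‖f.eval (inner ℂ x (A x))‖ ≤ 0 := hW x hx
    have hinj : Set.InjOn (fun t : ℝ => (1 - t) • z0 + t • (inner ℂ x (A x))) (Set.Icc 0 1) := by
      intro s _ t _ hst
      have h1 : ((s : ℂ) - t) * (inner ℂ x (A x) - z0) = 0 := by
        simp only [Complex.real_smul] at hst
        push_cast at hst
        linear_combination hst
      rcases mul_eq_zero.1 h1 with h2 | h2
      · have : (s : ℂ) = t := sub_eq_zero.1 h2
        exact_mod_cast this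
      · exact absurd (sub_eq_zero.1 h2) hne
    have hinf : ((fun t : ℝ => (1 - t) • z0 + t • (inner ℂ x (A x))) '' (Set.Icc 0 1)).Infinite :=
      (Set.Icc_infinite one_pos).image hinj
    have hsub : ((fun t : ℝ => (1 - t) • z0 + t • (inner ℂ x (A x))) '' (Set.Icc 0 1))
        ⊆ {z | IsRoot f z} := by
      rintro z ⟨t, ht, rfl⟩
      have hmem : (1 - t) • z0 + t • (inner ℂ x (A x)) ∈ {z : ℂ | ‖f.eval z‖ ≤ 0} :=
        hconv hz0mem hxmem (by linarith [ht.2]) ht.1 (by ring)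
      exact norm_le_zero_iff.1 hmem
    exact hf0 (eq_zero_of_infinite_isRoot f (hinf.mono hsub))
  -- hence A is the scalar z0
  have hscal : ∀ v : H, inner ℂ v (A v - z0 • v) = 0 := by
    intro v
    by_cases hv : v = 0
    · subst hv
      simp
    have hvpos : 0 < ‖v‖ := norm_pos_iff.2 hv
    have hxn : ‖(((‖v‖⁻¹ : ℝ) : ℂ) • v)‖ = 1 := by
      rw [norm_smul, Complex.norm_real, Real.norm_eq_abs, abs_of_pos (inv_pos.2 hvpos),
        inv_mul_cancel₀ hvpos.ne']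
    have h1 := hall _ hxn
    rw [map_smul, inner_smul_left, inner_smul_right, Complex.conj_ofReal] at h1
    rw [inner_sub_right, inner_smul_right, inner_self_C, ← h1]
    have hne : ((‖v‖ : ℝ) : ℂ) ≠ 0 := by exact_mod_cast hvpos.ne'
    push_cast
    field_simp
    ring
  have hT : ((A - z0 • (1 : H →L[ℂ] H) : H →L[ℂ] H) : H →ₗ[ℂ] H) = 0 := by
    rw [← inner_map_self_eq_zero]
    intro v
    have h1 := hscal v
    have h2 : inner ℂ ((A - z0 • (1 : H →L[ℂ] H)) v) v = (starRingEnd ℂ) (inner ℂ v (A v - z0 • v)) := by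
      rw [inner_conj_symm]
      rfl
    rw [ContinuousLinearMap.coe_coe, h2, h1, map_zero]
  have hA : A = algebraMap ℂ (H →L[ℂ] H) z0 := by
    have h1 : A - z0 • (1 : H →L[ℂ] H) = 0 := by
      ext v
      have := congrArg (fun T : H →ₗ[ℂ] H => T v) hT
      simpa using this
    rw [Algebra.algebraMap_eq_smul_one]
    exact sub_eq_zero.1 h1
  have hfA : aeval A f = algebraMap ℂ (H →L[ℂ] H) (f.eval z0) := by
    rw [hA]
    exact aeval_algebraMap_apply_eq_algebraMap_eval z0 f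
  have hfz0 : f.eval z0 = 0 := norm_le_zero_iff.1 hz0mem
  rw [hfA, hfz0, map_zero]
  simp

/-- Numerical-range mapping theorem for convex polynomial lemniscate regions. -/
theorem numRadius_le (A : H →L[ℂ] H) (f : ℂ[X]) (M : ℝ)
    (hconv : Convex ℝ {z : ℂ | ‖f.eval z‖ ≤ M})
    (hW : ∀ x : H, ‖x‖ = 1 → ‖f.eval (inner ℂ x (A x))‖ ≤ M)
    (y : H) (hy : ‖y‖ = 1) : ‖inner ℂ y (aeval A f y)‖ ≤ M := by
  have hM0 : 0 ≤ M := le_trans (norm_nonneg _) (hW y hy)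
  by_cases hdeg : f.natDegree = 0
  · have hfc := eq_C_of_natDegree_eq_zero hdeg
    have h1 := hW y hy
    rw [hfc] at h1 ⊢
    rw [aeval_C_apply, inner_smul_right, inner_self_eq_norm_sq_to_K, hy]
    simpa using h1
  · have hdeg' : 0 < f.natDegree := Nat.pos_of_ne_zero hdeg
    rcases hM0.lt_or_eq with hpos | hzero
    · exact numRadius_le_pos A f M hpos hdeg' hconv hW y hy
    · subst hzero
      exact numRadius_le_zero A f hdeg' hconv hW y hy

/-- `‖T‖ ≤ 2 w(T)`: the operator norm is at most twice the numerical radius. -/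
theorem opNorm_le_two_mul (T : H →L[ℂ] H) (w : ℝ) (hw0 : 0 ≤ w)
    (hw : ∀ x : H, ‖x‖ = 1 → ‖inner ℂ x (T x)‖ ≤ w) : ‖T‖ ≤ 2 * w := by
  -- homogeneous form
  have hhom : ∀ v : H, ‖inner ℂ (T v) v‖ ≤ w * ‖v‖ ^ 2 := by
    intro v
    by_cases hv : v = 0
    · subst hv
      simp
    have hvpos : 0 < ‖v‖ := norm_pos_iff.2 hv
    have hxn : ‖(((‖v‖⁻¹ : ℝ) : ℂ) • v)‖ = 1 := by
      rw [norm_smul, Complex.norm_real, Real.norm_eq_abs, abs_of_pos (inv_pos.2 hvpos),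
        inv_mul_cancel₀ hvpos.ne']
    have h1 := hw _ hxn
    rw [map_smul, inner_smul_left, inner_smul_right, Complex.conj_ofReal, norm_mul, norm_mul,
      Complex.norm_real, Real.norm_eq_abs, abs_of_pos (inv_pos.2 hvpos)] at h1
    have h2 : ‖inner ℂ (T v) v‖ = ‖inner ℂ v (T v)‖ := by
      rw [← inner_conj_symm, RCLike.norm_conj]
    rw [h2]
    have h3 : ‖inner ℂ v (T v)‖ = ‖v‖ ^ 2 * (‖v‖⁻¹ * (‖v‖⁻¹ * ‖inner ℂ v (T v)‖)) := by
      field_simp
    rw [h3]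
    calc ‖v‖ ^ 2 * (‖v‖⁻¹ * (‖v‖⁻¹ * ‖inner ℂ v (T v)‖)) ≤ ‖v‖ ^ 2 * w :=
          mul_le_mul_of_nonneg_left h1 (sq_nonneg _)
      _ = w * ‖v‖ ^ 2 := mul_comm _ _
  -- polarization
  have hpol : ∀ x y : H, ‖inner ℂ (T y) x‖ ≤ w * (‖x‖ ^ 2 + ‖y‖ ^ 2) := by
    intro x y
    have h := inner_map_polarization (T : H →ₗ[ℂ] H) x y
    simp only [ContinuousLinearMap.coe_coe] at h
    rw [h]
    have e1 := hhom (x + y)
    have e2 := hhom (x - y)
    have e3 := hhom (x + Complex.I • y)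
    have e4 := hhom (x - Complex.I • y)
    have p1 := parallelogram_law_with_norm ℂ x y
    have p2 := parallelogram_law_with_norm ℂ x (Complex.I • y)
    have hIy : ‖Complex.I • y‖ = ‖y‖ := by
      rw [norm_smul, Complex.norm_I, one_mul]
    rw [hIy] at p2
    have hn : ‖(inner ℂ (T (x + y)) (x + y) - inner ℂ (T (x - y)) (x - y) +
        Complex.I * inner ℂ (T (x + Complex.I • y)) (x + Complex.I • y) -
        Complex.I * inner ℂ (T (x - Complex.I • y)) (x - Complex.I • y)) / 4‖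
        ≤ (‖inner ℂ (T (x + y)) (x + y)‖ + ‖inner ℂ (T (x - y)) (x - y)‖ +
          ‖inner ℂ (T (x + Complex.I • y)) (x + Complex.I • y)‖ +
          ‖inner ℂ (T (x - Complex.I • y)) (x - Complex.I • y)‖) / 4 := by
      rw [norm_div]
      have h4 : ‖(4 : ℂ)‖ = 4 := by simp
      rw [h4]
      apply div_le_div_of_nonneg_right _ (by norm_num : (0 : ℝ) ≤ 4)
      refine (norm_sub_le _ _).trans ?_
      refine add_le_add ((norm_add_le _ _).trans ?_) ?_
      · refine add_le_add (norm_sub_le _ _) ?_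
        rw [norm_mul, Complex.norm_I, one_mul]
      · rw [norm_mul, Complex.norm_I, one_mul]
    refine hn.trans ?_
    nlinarith [norm_nonneg (x + y), norm_nonneg (x - y)]
  apply ContinuousLinearMap.opNorm_le_bound T (by positivity)
  intro y
  by_cases hTy : T y = 0
  · rw [hTy, norm_zero]
    positivity
  have hy0 : y ≠ 0 := by
    rintro rfl
    simp at hTy
  have hTpos : 0 < ‖T y‖ := norm_pos_iff.2 hTy
  have hypos : 0 < ‖y‖ := norm_pos_iff.2 hy0
  -- apply polarization to x = (‖y‖/‖T y‖) T y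
  set c : ℝ := ‖y‖ / ‖T y‖ with hc
  have hcpos : 0 < c := div_pos hypos hTpos
  have h1 := hpol ((c : ℂ) • T y) y
  rw [inner_smul_right, inner_self_eq_norm_sq_to_K, norm_smul, Complex.norm_real,
    Real.norm_eq_abs, abs_of_pos hcpos, norm_mul, Complex.norm_real, Real.norm_eq_abs,
    abs_of_pos hcpos] at h1
  have h2 : ‖((‖T y‖ : ℂ)) ^ 2‖ = ‖T y‖ ^ 2 := by
    rw [norm_pow, Complex.norm_real, norm_norm]
  have h2' : ‖((RCLike.ofReal ‖T y‖ : ℂ)) ^ 2‖ = ‖T y‖ ^ 2 := h2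
  rw [h2'] at h1
  have h3 : c * ‖T y‖ = ‖y‖ := by
    rw [hc]
    field_simp
  have h4 : c * ‖T y‖ ^ 2 = ‖y‖ * ‖T y‖ := by
    rw [sq, ← mul_assoc, h3]
  rw [h3, h4] at h1
  -- h1 : ‖y‖ * ‖T y‖ ≤ w * (‖y‖ ^ 2 + ‖y‖ ^ 2)
  have h5 : ‖y‖ * ‖T y‖ ≤ ‖y‖ * (2 * w * ‖y‖) := by nlinarith
  exact le_of_mul_le_mul_left h5 hypos

/-- Crouzeix-type bound with constant 2 at convex lemniscate levels. -/
theorem crouzeix_convex_level [Nontrivial H] (A : H →L[ℂ] H) (f : ℂ[X]) (M : ℝ)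
    (hconv : Convex ℝ {z : ℂ | ‖f.eval z‖ ≤ M})
    (hW : ∀ x : H, ‖x‖ = 1 → ‖f.eval (inner ℂ x (A x))‖ ≤ M) :
    (∀ y : H, ‖y‖ = 1 → ‖inner ℂ y (aeval A f y)‖ ≤ M) ∧ ‖aeval A f‖ ≤ 2 * M := by
  have hnum := numRadius_le A f M hconv hW
  refine ⟨hnum, ?_⟩
  obtain ⟨x, hx⟩ := exists_ne (0 : H)
  have hxpos : 0 < ‖x‖ := norm_pos_iff.2 hx
  have hxn : ‖(((‖x‖⁻¹ : ℝ) : ℂ) • x)‖ = 1 := by
    rw [norm_smul, Complex.norm_real, Real.norm_eq_abs, abs_of_pos (inv_pos.2 hxpos),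
      inv_mul_cancel₀ hxpos.ne']
  have hM0 : 0 ≤ M := le_trans (norm_nonneg _) (hW _ hxn)
  exact opNorm_le_two_mul _ M hM0 hnum

end Vale.Agent.H33
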