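import Mathlib
import Vale.Agent.H33.Main

namespace Vale.Agent.H33

open Polynomial

/-- Cauchy-Schwarz bound used for the Cassini region. -/
theorem cassini_abs (p q b x y : ℝ) (hb : 0 ≤ b) (hb2 : b ^ 2 = p ^ 2 + q ^ 2) :
    |p * (x ^ 2 - y ^ 2) + 2 * q * x * y| ≤ b * (x ^ 2 + y ^ 2) := by
  have hsq : (p * (x ^ 2 - y ^ 2) + 2 * q * x * y) ^ 2 ≤ (b * (x ^ 2 + y ^ 2)) ^ 2 := by
    have e : (b * (x ^ 2 + y ^ 2)) ^ 2 = (p ^ 2 + q ^ 2) * (x ^ 2 + y ^ 2) ^ 2 := by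
      rw [mul_pow, hb2]
    rw [e]
    nlinarith [sq_nonneg (q * (x ^ 2 - y ^ 2) - 2 * p * x * y)]
  have hnn : 0 ≤ b * (x ^ 2 + y ^ 2) := mul_nonneg hb (by positivity)
  exact abs_le_of_sq_le_sq hsq hnn

/-- The identity `|w^2+β|^2 = (|w|^2+|β|)^2 - D(w)`. -/
theorem cassini_id (p q b x y : ℝ) (hb2 : b ^ 2 = p ^ 2 + q ^ 2) :
    (x ^ 2 - y ^ 2 + p) ^ 2 + (2 * x * y + q) ^ 2
      = (x ^ 2 + y ^ 2 + b) ^ 2
        - (2 * b * (x ^ 2 + y ^ 2) - 2 * (p * (x ^ 2 - y ^ 2) + 2 * q * x * y)) := by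
  have e : (x ^ 2 + y ^ 2 + b) ^ 2 = (x ^ 2 + y ^ 2) ^ 2 + 2 * b * (x ^ 2 + y ^ 2) + b ^ 2 := by
    ring
  rw [e, hb2]
  ring

/-- Convexity identity for a quadratic form in two real variables. -/
theorem quad_form_id (k p q x1 y1 x2 y2 t : ℝ) :
    t * (k * (x1 ^ 2 + y1 ^ 2) + 2 * (p * (x1 ^ 2 - y1 ^ 2) + 2 * q * x1 * y1))
      + (1 - t) * (k * (x2 ^ 2 + y2 ^ 2) + 2 * (p * (x2 ^ 2 - y2 ^ 2) + 2 * q * x2 * y2))
      - (k * ((t * x1 + (1 - t) * x2) ^ 2 + (t * y1 + (1 - t) * y2) ^ 2)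
        + 2 * (p * ((t * x1 + (1 - t) * x2) ^ 2 - (t * y1 + (1 - t) * y2) ^ 2)
          + 2 * q * (t * x1 + (1 - t) * x2) * (t * y1 + (1 - t) * y2)))
      = t * (1 - t) * (k * ((x1 - x2) ^ 2 + (y1 - y2) ^ 2)
        + 2 * (p * ((x1 - x2) ^ 2 - (y1 - y2) ^ 2) + 2 * q * (x1 - x2) * (y1 - y2))) := by
  ring

/-- Real-variable core: convexity of the Cassini region `|w^2 + (p + q i)| ≤ M` when
`M ≥ 2 |p + q i|`, written with squares. -/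
theorem cassini_core (p q b M x1 y1 x2 y2 t : ℝ) (hb : 0 ≤ b) (hb2 : b ^ 2 = p ^ 2 + q ^ 2)
    (hM : 2 * b ≤ M) (hMpos : 0 < M) (ht : 0 ≤ t) (ht1 : t ≤ 1)
    (h1 : (x1 ^ 2 - y1 ^ 2 + p) ^ 2 + (2 * x1 * y1 + q) ^ 2 ≤ M ^ 2)
    (h2 : (x2 ^ 2 - y2 ^ 2 + p) ^ 2 + (2 * x2 * y2 + q) ^ 2 ≤ M ^ 2) :
    ((t * x1 + (1 - t) * x2) ^ 2 - (t * y1 + (1 - t) * y2) ^ 2 + p) ^ 2
      + (2 * (t * x1 + (1 - t) * x2) * (t * y1 + (1 - t) * y2) + q) ^ 2 ≤ M ^ 2 := by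
  -- abbreviations as universally quantified facts
  have hR : ∀ x y : ℝ, |p * (x ^ 2 - y ^ 2) + 2 * q * x * y| ≤ b * (x ^ 2 + y ^ 2) :=
    fun x y => cassini_abs p q b x y hb hb2
  obtain ⟨X, hX⟩ : ∃ X : ℝ, X = t * x1 + (1 - t) * x2 := ⟨_, rfl⟩
  obtain ⟨Y, hY⟩ : ∃ Y : ℝ, Y = t * y1 + (1 - t) * y2 := ⟨_, rfl⟩
  rw [← hX, ← hY]
  obtain ⟨r, hr⟩ : ∃ r : ℝ, r = p * (X ^ 2 - Y ^ 2) + 2 * q * X * Y := ⟨_, rfl⟩
  obtain ⟨r1, hr1⟩ : ∃ r : ℝ, r = p * (x1 ^ 2 - y1 ^ 2) + 2 * q * x1 * y1 := ⟨_, rfl⟩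
  obtain ⟨r2, hr2⟩ : ∃ r : ℝ, r = p * (x2 ^ 2 - y2 ^ 2) + 2 * q * x2 * y2 := ⟨_, rfl⟩
  obtain ⟨r3, hr3⟩ : ∃ r : ℝ,
      r = p * ((x1 - x2) ^ 2 - (y1 - y2) ^ 2) + 2 * q * (x1 - x2) * (y1 - y2) := ⟨_, rfl⟩
  obtain ⟨n, hn⟩ : ∃ n : ℝ, n = X ^ 2 + Y ^ 2 := ⟨_, rfl⟩
  obtain ⟨n1, hn1⟩ : ∃ n : ℝ, n = x1 ^ 2 + y1 ^ 2 := ⟨_, rfl⟩
  obtain ⟨n2, hn2⟩ : ∃ n : ℝ, n = x2 ^ 2 + y2 ^ 2 := ⟨_, rfl⟩
  obtain ⟨n3, hn3⟩ : ∃ n : ℝ, n = (x1 - x2) ^ 2 + (y1 - y2) ^ 2 := ⟨_, rfl⟩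
  have hn0 : 0 ≤ n := by rw [hn]; positivity
  have hn10 : 0 ≤ n1 := by rw [hn1]; positivity
  have hn20 : 0 ≤ n2 := by rw [hn2]; positivity
  have hn30 : 0 ≤ n3 := by rw [hn3]; positivity
  have hRr : |r| ≤ b * n := by rw [hr, hn]; exact hR X Y
  have hRr3 : |r3| ≤ b * n3 := by rw [hr3, hn3]; exact hR _ _
  -- identities
  have id0 : (X ^ 2 - Y ^ 2 + p) ^ 2 + (2 * X * Y + q) ^ 2 = (n + b) ^ 2 - (2 * b * n - 2 * r) := by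
    rw [hn, hr]; exact cassini_id p q b X Y hb2
  have id1 : (x1 ^ 2 - y1 ^ 2 + p) ^ 2 + (2 * x1 * y1 + q) ^ 2
      = (n1 + b) ^ 2 - (2 * b * n1 - 2 * r1) := by
    rw [hn1, hr1]; exact cassini_id p q b x1 y1 hb2
  have id2 : (x2 ^ 2 - y2 ^ 2 + p) ^ 2 + (2 * x2 * y2 + q) ^ 2
      = (n2 + b) ^ 2 - (2 * b * n2 - 2 * r2) := by
    rw [hn2, hr2]; exact cassini_id p q b x2 y2 hb2
  rw [id1] at h1
  rw [id2] at h2
  rw [id0]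
  -- the multiplier
  have hD0 : 0 ≤ 2 * b * n - 2 * r := by
    have := (abs_le.1 hRr).2
    linarith
  obtain ⟨L, hL⟩ : ∃ L : ℝ, L = Real.sqrt (M ^ 2 + (2 * b * n - 2 * r)) := ⟨_, rfl⟩
  have hL2 : L ^ 2 = M ^ 2 + (2 * b * n - 2 * r) := by
    rw [hL]; exact Real.sq_sqrt (by positivity)
  have hLM : M ≤ L := by
    rw [hL]
    apply Real.le_sqrt_of_sq_le
    linarith
  have hLpos : 0 < L := lt_of_lt_of_le hMpos hLM
  have hE1 : 2 * L * (n1 + b) ≤ L ^ 2 + M ^ 2 + (2 * b * n1 - 2 * r1) := by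
    have e := sq_nonneg (L - (n1 + b))
    have e' : (L - (n1 + b)) ^ 2 = L ^ 2 - 2 * L * (n1 + b) + (n1 + b) ^ 2 := by ring
    rw [e'] at e
    linarith
  have hE2 : 2 * L * (n2 + b) ≤ L ^ 2 + M ^ 2 + (2 * b * n2 - 2 * r2) := by
    have e := sq_nonneg (L - (n2 + b))
    have e' : (L - (n2 + b)) ^ 2 = L ^ 2 - 2 * L * (n2 + b) + (n2 + b) ^ 2 := by ring
    rw [e'] at e
    linarith
  -- quadratic form identity with k = 2 L - 2 b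
  have hqf := quad_form_id (2 * L - 2 * b) p q x1 y1 x2 y2 t
  rw [← hX, ← hY, ← hn1, ← hn2, ← hn3, ← hr1, ← hr2, ← hr3, ← hn, ← hr] at hqf
  have hQ3 : 0 ≤ (2 * L - 2 * b) * n3 + 2 * r3 := by
    have h3 := (abs_le.1 hRr3).1
    have h4 : 0 ≤ (2 * L - 4 * b) * n3 := mul_nonneg (by linarith) hn30
    linarith
  have hprod : 0 ≤ t * (1 - t) * ((2 * L - 2 * b) * n3 + 2 * r3) :=
    mul_nonneg (mul_nonneg ht (by linarith)) hQ3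
  have hconvQ : 2 * L * (n + b) ≤ L ^ 2 + M ^ 2 + (2 * b * n - 2 * r) := by
    have ht1' : 0 ≤ 1 - t := by linarith
    have e1 := mul_le_mul_of_nonneg_left hE1 ht
    have e2 := mul_le_mul_of_nonneg_left hE2 ht1'
    linarith
  have hfin : n + b ≤ L := by
    have h5 : 2 * L * (n + b) ≤ 2 * L * L := by
      have : L ^ 2 + M ^ 2 + (2 * b * n - 2 * r) = 2 * L * L := by
        have e : 2 * L * L = L ^ 2 + L ^ 2 := by ring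
        rw [e]
        linarith
      linarith
    exact le_of_mul_le_mul_left h5 (by linarith)
  have hnn : 0 ≤ n + b := by positivity
  have hsq : (n + b) ^ 2 ≤ L ^ 2 := pow_le_pow_left₀ hnn hfin 2
  linarith

/-- The Cassini region `{w : |w^2 + β| ≤ M}` is convex as soon as `M ≥ 2 |β|`. -/
theorem cassini_convex (β : ℂ) (M : ℝ) (hM : 2 * ‖β‖ ≤ M) :
    Convex ℝ {w : ℂ | ‖w ^ 2 + β‖ ≤ M} := by
  have hnormsq : ∀ w : ℂ, ‖w ^ 2 + β‖ ^ 2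
      = (w.re ^ 2 - w.im ^ 2 + β.re) ^ 2 + (2 * w.re * w.im + β.im) ^ 2 := by
    intro w
    rw [Complex.sq_norm, Complex.normSq_apply]
    simp only [Complex.add_re, Complex.add_im, sq, Complex.mul_re, Complex.mul_im]
    ring
  have hM0 : 0 ≤ M := le_trans (by positivity) hM
  rcases hM0.lt_or_eq with hMpos | hMzero
  · intro w1 h1 w2 h2 t s ht hs hts
    have hs' : s = 1 - t := by linarith
    subst hs'
    have h1' : ‖w1 ^ 2 + β‖ ^ 2 ≤ M ^ 2 := pow_le_pow_left₀ (norm_nonneg _) h1 2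
    have h2' : ‖w2 ^ 2 + β‖ ^ 2 ≤ M ^ 2 := pow_le_pow_left₀ (norm_nonneg _) h2 2
    rw [hnormsq] at h1' h2'
    have hb2 : ‖β‖ ^ 2 = β.re ^ 2 + β.im ^ 2 := by
      rw [Complex.sq_norm, Complex.normSq_apply]
      ring
    have hcore := cassini_core β.re β.im ‖β‖ M w1.re w1.im w2.re w2.im t (norm_nonneg _) hb2 hM
      hMpos ht (by linarith) h1' h2'
    have hgoal : ‖(t • w1 + (1 - t) • w2) ^ 2 + β‖ ^ 2 ≤ M ^ 2 := by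
      rw [hnormsq]
      simpa using hcore
    exact (abs_le_of_sq_le_sq' hgoal hM0).2
  · -- M = 0 forces β = 0 and the set is {0}
    have hβ : β = 0 := by
      have : ‖β‖ ≤ 0 := by linarith
      exact norm_le_zero_iff.1 this
    subst hβ
    intro w1 h1 w2 h2 t s _ _ _
    have e1 : w1 = 0 := by
      have h : ‖w1 ^ 2 + 0‖ ≤ 0 := by
        rw [hMzero]
        exact h1
      simpa using h
    have e2 : w2 = 0 := by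
      have h : ‖w2 ^ 2 + 0‖ ≤ 0 := by
        rw [hMzero]
        exact h2
      simpa using h
    subst e1 e2
    simpa using hM0

/-- Sublevel sets of a quadratic polynomial are convex from twice the modulus of the
critical value on. -/
theorem quadratic_sublevel_convex (a b c : ℂ) (ha : a ≠ 0) (M : ℝ)
    (hM : 2 * ‖c - b ^ 2 / (4 * a)‖ ≤ M) :
    Convex ℝ {z : ℂ | ‖a * z ^ 2 + b * z + c‖ ≤ M} := by
  have hapos : 0 < ‖a‖ := norm_pos_iff.2 ha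
  have hβ : 2 * ‖(c - b ^ 2 / (4 * a)) / a‖ ≤ M / ‖a‖ := by
    rw [norm_div, ← mul_div_assoc]
    exact div_le_div_of_nonneg_right hM hapos.le
  have hcas := cassini_convex ((c - b ^ 2 / (4 * a)) / a) (M / ‖a‖) hβ
  have hset : {z : ℂ | ‖a * z ^ 2 + b * z + c‖ ≤ M}
      = (fun z : ℂ => b / (2 * a) + z) ⁻¹' {w : ℂ | ‖w ^ 2 + (c - b ^ 2 / (4 * a)) / a‖ ≤ M / ‖a‖} := by
    ext z
    have hfac : a * z ^ 2 + b * z + c = a * ((b / (2 * a) + z) ^ 2 + (c - b ^ 2 / (4 * a)) / a) := by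
      field_simp
      ring
    show ‖a * z ^ 2 + b * z + c‖ ≤ M ↔ ‖(b / (2 * a) + z) ^ 2 + (c - b ^ 2 / (4 * a)) / a‖ ≤ M / ‖a‖
    rw [hfac, norm_mul, le_div_iff₀ hapos, mul_comm]
  rw [hset]
  exact hcas.translate_preimage_right (b / (2 * a))

end Vale.Agent.H33
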