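import Mathlib
import Vale.Agent.H33.Main

namespace Vale.Agent.H33

open Polynomial Filter Topology

/-- Algebraic core of the convexity estimate: if the numbers `s i` all lie close to a common
reference value and the real parts of `w * s i` sum to zero, then the second-derivative sum
is positive. -/
theorem cluster_key {ι : Type*} [Fintype ι] [Nonempty ι] (s : ι → ℂ) (sref w : ℂ) (hw : w ≠ 0)
    (hs : ∀ i, 2 * ‖s i - sref‖ ^ 2 < ‖s i‖ ^ 2)
    (hsum : ∑ i, (w * s i).re = 0) :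
    0 < ∑ i, (2 * ‖w * s i‖ ^ 2 - 4 * ((w * s i).re) ^ 2) := by
  set e : ℝ := (w * sref).re with he
  set d : ι → ℝ := fun i => (w * (s i - sref)).re with hd
  have hsplit : ∀ i, (w * s i).re = d i + e := by
    intro i
    simp only [hd, he]
    rw [← Complex.add_re]
    congr 1
    ring
  have hdsum : ∑ i, d i = -((Fintype.card ι : ℝ) * e) := by
    have h1 : ∑ i, (d i + e) = 0 := by
      rw [← hsum]
      exact Finset.sum_congr rfl (fun i _ => (hsplit i).symm)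
    rw [Finset.sum_add_distrib, Finset.sum_const, Finset.card_univ, nsmul_eq_mul] at h1
    linarith
  have hwpos : 0 < ‖w‖ ^ 2 := by positivity
  have hdi : ∀ i, 4 * (d i) ^ 2 < 2 * ‖w * s i‖ ^ 2 := by
    intro i
    have h1 : |d i| ≤ ‖w * (s i - sref)‖ := Complex.abs_re_le_norm _
    have h2 : (d i) ^ 2 ≤ ‖w * (s i - sref)‖ ^ 2 := by
      rw [← sq_abs (d i)]
      exact pow_le_pow_left₀ (abs_nonneg _) h1 2
    rw [norm_mul, mul_pow] at h2
    rw [norm_mul, mul_pow]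
    have h3 := hs i
    nlinarith [mul_lt_mul_of_pos_left h3 hwpos]
  have hexp : ∑ i, (d i + e) ^ 2 = ∑ i, (d i) ^ 2 - (Fintype.card ι : ℝ) * e ^ 2 := by
    have h1 : ∀ i, (d i + e) ^ 2 = (d i) ^ 2 + 2 * e * d i + e ^ 2 := fun i => by ring
    rw [Finset.sum_congr rfl (fun i _ => h1 i), Finset.sum_add_distrib, Finset.sum_add_distrib,
      ← Finset.mul_sum, hdsum, Finset.sum_const, Finset.card_univ, nsmul_eq_mul]
    ring
  have hcard : (0 : ℝ) ≤ (Fintype.card ι : ℝ) * e ^ 2 := by positivity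
  have hlt : ∑ i, 4 * (d i) ^ 2 < ∑ i, 2 * ‖w * s i‖ ^ 2 :=
    Finset.sum_lt_sum_of_nonempty Finset.univ_nonempty (fun i _ => hdi i)
  rw [Finset.sum_sub_distrib]
  have h4 : ∑ i, 4 * ((w * s i).re) ^ 2 = 4 * ∑ i, (d i + e) ^ 2 := by
    rw [Finset.mul_sum]
    exact Finset.sum_congr rfl (fun i _ => by rw [hsplit i])
  rw [h4, hexp]
  rw [← Finset.mul_sum] at hlt
  linarith

/-- A function whose derivative has a positive derivative at a point cannot have a local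
maximum there. -/
theorem no_interior_max (L D1 : ℝ → ℝ) (D2 t : ℝ)
    (h1 : ∀ᶠ u in 𝓝 t, HasDerivAt L (D1 u) u)
    (h2 : HasDerivAt D1 D2 t) (hpos : 0 < D2) (hmax : IsLocalMax L t) : False := by
  have hLt : HasDerivAt L (D1 t) t := h1.self_of_nhds
  have hz : D1 t = 0 := hmax.hasDerivAt_eq_zero hLt
  have hderiv : deriv L =ᶠ[𝓝 t] D1 := h1.mono (fun u hu => hu.deriv)
  have hdd : deriv (deriv L) t = D2 := by
    rw [hderiv.deriv_eq]
    exact h2.deriv
  have hd0 : deriv L t = 0 := by rw [hLt.deriv, hz]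
  have hmin : IsLocalMin L t :=
    isLocalMin_of_deriv_deriv_pos (by rw [hdd]; exact hpos) hd0 hLt.continuousAt
  have hconst : L =ᶠ[𝓝 t] fun _ => L t := by
    filter_upwards [hmax, hmin] with u hu1 hu2
    exact le_antisymm hu1 hu2
  have hd1 : deriv L =ᶠ[𝓝 t] fun _ => (0 : ℝ) := by
    have h3 : ∀ᶠ u in 𝓝 t, L =ᶠ[𝓝 u] fun _ => L t := hconst.eventually_nhds
    filter_upwards [h3] with u hu
    rw [hu.deriv_eq]
    simp
  have hdd0 : deriv (deriv L) t = 0 := by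
    rw [hd1.deriv_eq]
    simp
  rw [hdd] at hdd0
  linarith

theorem hasDerivAt_q (x y u v t : ℝ) :
    HasDerivAt (fun τ : ℝ => (x + τ * u) ^ 2 + (y + τ * v) ^ 2)
      (2 * (x + t * u) * u + 2 * (y + t * v) * v) t := by
  have h1 : HasDerivAt (fun τ : ℝ => x + τ * u) u t := by
    simpa using ((hasDerivAt_id t).mul_const u).const_add x
  have h2 : HasDerivAt (fun τ : ℝ => y + τ * v) v t := by
    simpa using ((hasDerivAt_id t).mul_const v).const_add y
  have h3 : HasDerivAt (fun τ : ℝ => (x + τ * u) ^ 2) (2 * (x + t * u) * u) t := by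
    simpa using h1.fun_pow 2
  have h4 : HasDerivAt (fun τ : ℝ => (y + τ * v) ^ 2) (2 * (y + t * v) * v) t := by
    simpa using h2.fun_pow 2
  exact h3.fun_add h4

theorem hasDerivAt_q' (x y u v t : ℝ) :
    HasDerivAt (fun τ : ℝ => 2 * (x + τ * u) * u + 2 * (y + τ * v) * v)
      (2 * (u ^ 2 + v ^ 2)) t := by
  have h1 : HasDerivAt (fun τ : ℝ => x + τ * u) u t := by
    simpa using ((hasDerivAt_id t).mul_const u).const_add x
  have h2 : HasDerivAt (fun τ : ℝ => y + τ * v) v t := by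
    simpa using ((hasDerivAt_id t).mul_const v).const_add y
  have h3 : HasDerivAt (fun τ : ℝ => 2 * (x + τ * u) * u) (2 * u * u) t :=
    (h1.const_mul 2).mul_const u
  have h4 : HasDerivAt (fun τ : ℝ => 2 * (y + τ * v) * v) (2 * v * v) t :=
    (h2.const_mul 2).mul_const v
  have h5 := h3.fun_add h4
  have h6 : 2 * u * u + 2 * v * v = 2 * (u ^ 2 + v ^ 2) := by ring
  rw [h6] at h5
  exact h5

theorem hasDerivAt_logq (x y u v t : ℝ) (hq : (x + t * u) ^ 2 + (y + t * v) ^ 2 ≠ 0) :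
    HasDerivAt (fun τ : ℝ => Real.log ((x + τ * u) ^ 2 + (y + τ * v) ^ 2))
      ((2 * (x + t * u) * u + 2 * (y + t * v) * v) / ((x + t * u) ^ 2 + (y + t * v) ^ 2)) t :=
  (hasDerivAt_q x y u v t).log hq

theorem hasDerivAt_ratio (x y u v t : ℝ) (hq : (x + t * u) ^ 2 + (y + t * v) ^ 2 ≠ 0) :
    HasDerivAt (fun τ : ℝ => (2 * (x + τ * u) * u + 2 * (y + τ * v) * v) /
        ((x + τ * u) ^ 2 + (y + τ * v) ^ 2))
      ((2 * (u ^ 2 + v ^ 2) * ((x + t * u) ^ 2 + (y + t * v) ^ 2) -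
          (2 * (x + t * u) * u + 2 * (y + t * v) * v) *
            (2 * (x + t * u) * u + 2 * (y + t * v) * v)) /
        ((x + t * u) ^ 2 + (y + t * v) ^ 2) ^ 2) t :=
  (hasDerivAt_q' x y u v t).div (hasDerivAt_q x y u v t) hq

theorem re_mul_inv (w Z : ℂ) :
    (w * Z⁻¹).re = (w.re * Z.re + w.im * Z.im) / (Z.re ^ 2 + Z.im ^ 2) := by
  rw [Complex.mul_re, Complex.inv_re, Complex.inv_im, Complex.normSq_apply]
  ring

theorem normSq_mul_inv (w Z : ℂ) :
    ‖w * Z⁻¹‖ ^ 2 = (w.re ^ 2 + w.im ^ 2) / (Z.re ^ 2 + Z.im ^ 2) := by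
  rw [norm_mul, norm_inv, mul_pow, inv_pow, Complex.sq_norm, Complex.sq_norm,
    Complex.normSq_apply, Complex.normSq_apply]
  ring

/-- Along a line `τ ↦ z1 + τ w`, the product of the distances to points `r i` clustered in a
disc `D(c, ρ)` has no local maximum at a point whose distance from `c` exceeds `√2 ρ`. -/
theorem cluster_segment (n : ℕ) (r : Fin n → ℂ) (c : ℂ) (ρ : ℝ) (hr : ∀ i, ‖r i - c‖ ≤ ρ)
    (z1 w : ℂ) (t : ℝ) (hn : 0 < n) (hw : w ≠ 0)
    (hfar : Real.sqrt 2 * ρ < ‖z1 + (t : ℂ) * w - c‖)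
    (hloc : IsLocalMax (fun τ : ℝ => ∏ i, ‖z1 + (τ : ℂ) * w - r i‖) t) : False := by
  have : Nonempty (Fin n) := ⟨⟨0, hn⟩⟩
  have hρ : 0 ≤ ρ := le_trans (norm_nonneg _) (hr ⟨0, hn⟩)
  have hsqrt2 : (1 : ℝ) ≤ Real.sqrt 2 := by
    rw [show (1 : ℝ) = Real.sqrt 1 by simp]
    exact Real.sqrt_le_sqrt (by norm_num)
  set x : Fin n → ℝ := fun i => (z1 - r i).re with hx
  set y : Fin n → ℝ := fun i => (z1 - r i).im with hy
  set u : ℝ := w.re with hu
  set v : ℝ := w.im with hv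
  have hq : ∀ (i : Fin n) (τ : ℝ),
      ‖z1 + (τ : ℂ) * w - r i‖ ^ 2 = (x i + τ * u) ^ 2 + (y i + τ * v) ^ 2 := by
    intro i τ
    rw [Complex.sq_norm, Complex.normSq_apply]
    simp only [hx, hy, hu, hv, Complex.add_re, Complex.sub_re, Complex.mul_re, Complex.ofReal_re,
      Complex.ofReal_im, Complex.add_im, Complex.sub_im, Complex.mul_im]
    ring
  have hZ : ∀ i, 0 < ‖z1 + (t : ℂ) * w - r i‖ := by
    intro i
    have h1 : ‖z1 + (t : ℂ) * w - c‖ ≤ ‖z1 + (t : ℂ) * w - r i‖ + ‖r i - c‖ := by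
      have h0 : z1 + (t : ℂ) * w - c = (z1 + (t : ℂ) * w - r i) + (r i - c) := by ring
      rw [h0]
      exact norm_add_le _ _
    have h2 := hr i
    nlinarith
  have hqpos : ∀ i, 0 < (x i + t * u) ^ 2 + (y i + t * v) ^ 2 := by
    intro i
    rw [← hq]
    exact pow_pos (hZ i) 2
  have hev : ∀ᶠ τ in 𝓝 t, ∀ i, 0 < (x i + τ * u) ^ 2 + (y i + τ * v) ^ 2 := by
    rw [Filter.eventually_all]
    intro i
    have hc : Continuous (fun τ : ℝ => (x i + τ * u) ^ 2 + (y i + τ * v) ^ 2) := by fun_prop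
    exact hc.continuousAt.eventually (lt_mem_nhds (hqpos i))
  set L : ℝ → ℝ := fun τ => ∑ i, Real.log ((x i + τ * u) ^ 2 + (y i + τ * v) ^ 2) with hLdef
  set D1 : ℝ → ℝ := fun τ => ∑ i, (2 * (x i + τ * u) * u + 2 * (y i + τ * v) * v) /
        ((x i + τ * u) ^ 2 + (y i + τ * v) ^ 2) with hD1def
  have hL : ∀ᶠ τ in 𝓝 t, HasDerivAt L (D1 τ) τ := by
    filter_upwards [hev] with τ hτ
    exact HasDerivAt.fun_sum (fun i _ => hasDerivAt_logq (x i) (y i) u v τ (hτ i).ne')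
  have hD1 : HasDerivAt D1 (∑ i, (2 * (u ^ 2 + v ^ 2) * ((x i + t * u) ^ 2 + (y i + t * v) ^ 2) -
          (2 * (x i + t * u) * u + 2 * (y i + t * v) * v) *
            (2 * (x i + t * u) * u + 2 * (y i + t * v) * v)) /
        ((x i + t * u) ^ 2 + (y i + t * v) ^ 2) ^ 2) t :=
    HasDerivAt.fun_sum (fun i _ => hasDerivAt_ratio (x i) (y i) u v t (hqpos i).ne')
  have hLmax : IsLocalMax L t := by
    filter_upwards [hloc, hev] with τ hτ1 hτ2
    show ∑ i, Real.log ((x i + τ * u) ^ 2 + (y i + τ * v) ^ 2) ≤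
      ∑ i, Real.log ((x i + t * u) ^ 2 + (y i + t * v) ^ 2)
    rw [← Real.log_prod (fun i _ => (hτ2 i).ne'), ← Real.log_prod (fun i _ => (hqpos i).ne')]
    apply Real.log_le_log (Finset.prod_pos (fun i _ => hτ2 i))
    have e1 : ∏ i, ((x i + τ * u) ^ 2 + (y i + τ * v) ^ 2) =
        (∏ i, ‖z1 + (τ : ℂ) * w - r i‖) ^ 2 := by
      rw [← Finset.prod_pow]
      exact Finset.prod_congr rfl (fun i _ => (hq i τ).symm)
    have e2 : ∏ i, ((x i + t * u) ^ 2 + (y i + t * v) ^ 2) =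
        (∏ i, ‖z1 + (t : ℂ) * w - r i‖) ^ 2 := by
      rw [← Finset.prod_pow]
      exact Finset.prod_congr rfl (fun i _ => (hq i t).symm)
    rw [e1, e2]
    exact pow_le_pow_left₀ (Finset.prod_nonneg (fun i _ => norm_nonneg _)) hτ1 2
  have hD1z : D1 t = 0 := hLmax.hasDerivAt_eq_zero hL.self_of_nhds
  set s : Fin n → ℂ := fun i => (z1 + (t : ℂ) * w - r i)⁻¹ with hsdef
  set sref : ℂ := (z1 + (t : ℂ) * w - c)⁻¹ with hsref
  have hZre : ∀ i, (z1 + (t : ℂ) * w - r i).re = x i + t * u := by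
    intro i
    simp only [hx, hu, Complex.add_re, Complex.sub_re, Complex.mul_re, Complex.ofReal_re,
      Complex.ofReal_im]
    ring
  have hZim : ∀ i, (z1 + (t : ℂ) * w - r i).im = y i + t * v := by
    intro i
    simp only [hy, hv, Complex.add_im, Complex.sub_im, Complex.mul_im, Complex.ofReal_re,
      Complex.ofReal_im]
    ring
  have hre : ∀ i, (w * s i).re =
      (u * (x i + t * u) + v * (y i + t * v)) / ((x i + t * u) ^ 2 + (y i + t * v) ^ 2) := by
    intro i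
    rw [hsdef]
    simp only
    rw [re_mul_inv, hZre, hZim]
  have hnm : ∀ i, ‖w * s i‖ ^ 2 =
      (u ^ 2 + v ^ 2) / ((x i + t * u) ^ 2 + (y i + t * v) ^ 2) := by
    intro i
    rw [hsdef]
    simp only
    rw [normSq_mul_inv, hZre, hZim]
  have hC : 0 < ‖z1 + (t : ℂ) * w - c‖ := lt_of_le_of_lt (by positivity) hfar
  have hC2 : 2 * ρ ^ 2 < ‖z1 + (t : ℂ) * w - c‖ ^ 2 := by
    have h1 : (Real.sqrt 2 * ρ) ^ 2 < ‖z1 + (t : ℂ) * w - c‖ ^ 2 :=
      pow_lt_pow_left₀ hfar (by positivity) (by norm_num)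
    rw [mul_pow, Real.sq_sqrt (by norm_num)] at h1
    exact h1
  have hs : ∀ i, 2 * ‖s i - sref‖ ^ 2 < ‖s i‖ ^ 2 := by
    intro i
    have hZne : z1 + (t : ℂ) * w - r i ≠ 0 := norm_pos_iff.1 (hZ i)
    have hCne : z1 + (t : ℂ) * w - c ≠ 0 := norm_pos_iff.1 hC
    have h1 : s i - sref = (r i - c) * s i * sref := by
      rw [hsdef, hsref]
      simp only
      field_simp
      ring
    rw [h1, norm_mul, norm_mul, mul_pow, mul_pow]
    have hsi : 0 < ‖s i‖ ^ 2 := by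
      have h0 : s i ≠ 0 := by
        rw [hsdef]
        exact inv_ne_zero hZne
      positivity
    have hsr : ‖sref‖ ^ 2 = (‖z1 + (t : ℂ) * w - c‖ ^ 2)⁻¹ := by
      rw [hsref, norm_inv, inv_pow]
    rw [hsr]
    have h2 : ‖r i - c‖ ^ 2 ≤ ρ ^ 2 := pow_le_pow_left₀ (norm_nonneg _) (hr i) 2
    have h3 : 2 * ‖r i - c‖ ^ 2 < ‖z1 + (t : ℂ) * w - c‖ ^ 2 := by linarith
    have h4 : 2 * ‖r i - c‖ ^ 2 * (‖z1 + (t : ℂ) * w - c‖ ^ 2)⁻¹ < 1 := by
      rw [← div_eq_mul_inv, div_lt_one (by positivity)]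
      exact h3
    nlinarith
  have hsum : ∑ i, (w * s i).re = 0 := by
    have h1 : D1 t = 2 * ∑ i, (w * s i).re := by
      rw [hD1def]
      simp only
      rw [Finset.mul_sum]
      refine Finset.sum_congr rfl (fun i _ => ?_)
      rw [hre i]
      ring
    linarith
  have hkey := cluster_key s sref w hw hs hsum
  have hD2 : (∑ i, (2 * (u ^ 2 + v ^ 2) * ((x i + t * u) ^ 2 + (y i + t * v) ^ 2) -
          (2 * (x i + t * u) * u + 2 * (y i + t * v) * v) *
            (2 * (x i + t * u) * u + 2 * (y i + t * v) * v)) /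
        ((x i + t * u) ^ 2 + (y i + t * v) ^ 2) ^ 2) =
      ∑ i, (2 * ‖w * s i‖ ^ 2 - 4 * ((w * s i).re) ^ 2) := by
    refine Finset.sum_congr rfl (fun i _ => ?_)
    rw [hre i, hnm i]
    have h0 := (hqpos i).ne'
    field_simp
    ring
  exact no_interior_max L D1 _ t hL hD1 (by rw [hD2]; exact hkey) hLmax

/-- Convexity of the region `{z : |a| ∏ |z - r i| ≤ M}` when all the points `r i` lie in the
disc `D(c, ρ)` and the region contains the disc `D(c, √2 ρ)`. -/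
theorem cluster_convex (n : ℕ) (r : Fin n → ℂ) (a c : ℂ) (ρ M : ℝ) (hr : ∀ i, ‖r i - c‖ ≤ ρ)
    (hM : ∀ z : ℂ, ‖z - c‖ ≤ Real.sqrt 2 * ρ → ‖a‖ * ∏ i, ‖z - r i‖ ≤ M) :
    Convex ℝ {z : ℂ | ‖a‖ * ∏ i, ‖z - r i‖ ≤ M} := by
  intro z1 h1 z2 h2 α β hα hβ hαβ
  simp only [Set.mem_ofPred_eq] at h1 h2 ⊢
  by_contra hcon
  have hcon' : M < ‖a‖ * ∏ i, ‖α • z1 + β • z2 - r i‖ := not_le.1 hcon
  set w : ℂ := z2 - z1 with hwdef
  have hpt : α • z1 + β • z2 = z1 + (β : ℂ) * w := by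
    have hα' : α = 1 - β := by linarith
    rw [hα', hwdef, Complex.real_smul, Complex.real_smul]
    push_cast
    ring
  set G : ℝ → ℝ := fun τ => ‖a‖ * ∏ i, ‖z1 + (τ : ℂ) * w - r i‖ with hGdef
  have hGc : Continuous G := by
    rw [hGdef]
    fun_prop
  obtain ⟨t, ht, hmax⟩ := isCompact_Icc.exists_isMaxOn (Set.nonempty_Icc.2 zero_le_one)
    hGc.continuousOn
  have hβmem : β ∈ Set.Icc (0 : ℝ) 1 := ⟨hβ, by linarith⟩
  have hGβ : M < G β := by
    rw [hGdef]
    simp only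
    rw [← hpt]
    exact hcon'
  have hGt : M < G t := lt_of_lt_of_le hGβ (hmax hβmem)
  have hG0 : G 0 ≤ M := by
    rw [hGdef]
    simp only [Complex.ofReal_zero, zero_mul, add_zero]
    exact h1
  have hG1 : G 1 ≤ M := by
    rw [hGdef]
    simp only [Complex.ofReal_one, one_mul]
    rw [hwdef, add_sub_cancel]
    exact h2
  have ht0 : t ≠ 0 := by
    rintro rfl
    linarith
  have ht1 : t ≠ 1 := by
    rintro rfl
    linarith
  have hIoo : 0 < t ∧ t < 1 := ⟨lt_of_le_of_ne ht.1 (Ne.symm ht0), lt_of_le_of_ne ht.2 ht1⟩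
  have hlocG : IsLocalMax G t := hmax.isLocalMax (Icc_mem_nhds hIoo.1 hIoo.2)
  have hn : 0 < n := by
    rcases Nat.eq_zero_or_pos n with h0 | h0
    · exfalso
      subst h0
      have e1 : G t = G 0 := by
        rw [hGdef]
        simp
      linarith
    · exact h0
  have ha : 0 < ‖a‖ := by
    rcases (norm_nonneg a).eq_or_lt with h0 | h0
    · exfalso
      have e1 : G t = G 0 := by
        rw [hGdef]
        simp only
        rw [← h0, zero_mul, zero_mul]
      linarith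
    · exact h0
  have hw : w ≠ 0 := by
    intro h0
    have e1 : G t = G 0 := by
      rw [hGdef]
      simp only [h0, mul_zero, add_zero]
    linarith
  have hfar : Real.sqrt 2 * ρ < ‖z1 + (t : ℂ) * w - c‖ := by
    by_contra hnot
    have hle : ‖z1 + (t : ℂ) * w - c‖ ≤ Real.sqrt 2 * ρ := not_lt.1 hnot
    have e1 : G t ≤ M := hM _ hle
    linarith
  have hloc : IsLocalMax (fun τ : ℝ => ∏ i, ‖z1 + (τ : ℂ) * w - r i‖) t := by
    filter_upwards [hlocG] with τ hτ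
    exact le_of_mul_le_mul_left hτ ha
  exact cluster_segment n r c ρ hr z1 w t hn hw hfar hloc

/-- The modulus of a complex polynomial as a product over the list of its roots. -/
theorem norm_eval_eq_prod (P : ℂ[X]) (z : ℂ) :
    ‖P.eval z‖ = ‖P.leadingCoeff‖ *
      ∏ i : Fin P.roots.toList.length, ‖z - P.roots.toList[i.1]‖ := by
  have h := (IsAlgClosed.splits P).eq_prod_roots
  have h2 : (P.roots.map (X - C ·)).prod =
      ∏ i : Fin P.roots.toList.length, (X - C (P.roots.toList[i.1])) := by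
    rw [Fin.prod_univ_fun_getElem P.roots.toList (fun r => X - C r)]
    conv_lhs => rw [← Multiset.coe_toList P.roots]
    rw [Multiset.map_coe, Multiset.prod_coe]
  conv_lhs => rw [h, h2]
  rw [eval_mul, eval_C, norm_mul, eval_prod, norm_prod]
  simp

/-- If all roots of `P` lie in the disc `D(c, ρ)` and `|P| ≤ M` on the disc `D(c, √2 ρ)`,
the region `{|P| ≤ M}` is convex. -/
theorem clustered_sublevel_convex (P : ℂ[X]) (c : ℂ) (ρ M : ℝ)
    (hroots : ∀ z ∈ P.roots, ‖z - c‖ ≤ ρ)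
    (hM : ∀ z : ℂ, ‖z - c‖ ≤ Real.sqrt 2 * ρ → ‖P.eval z‖ ≤ M) :
    Convex ℝ {z : ℂ | ‖P.eval z‖ ≤ M} := by
  have hmain := cluster_convex P.roots.toList.length (fun i => P.roots.toList[i.1])
    P.leadingCoeff c ρ M
    (fun i => hroots _ (by rw [← Multiset.mem_toList]; exact List.getElem_mem _))
    (fun z hz => by rw [← norm_eval_eq_prod]; exact hM z hz)
  have hset : {z : ℂ | ‖P.eval z‖ ≤ M} =
      {z : ℂ | ‖P.leadingCoeff‖ *
        ∏ i : Fin P.roots.toList.length, ‖z - P.roots.toList[i.1]‖ ≤ M} := by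
    ext z
    simp only [Set.mem_ofPred_eq]
    rw [norm_eval_eq_prod]
  rw [hset]
  exact hmain

/-- Explicit sufficient level: if all roots of `P` lie in `D(c, ρ)`, then `|P|` is at most
`|leading coefficient| * ((1 + √2) ρ) ^ deg P` on the disc `D(c, √2 ρ)`. -/
theorem clustered_bound_on_disc (P : ℂ[X]) (c : ℂ) (ρ : ℝ)
    (hroots : ∀ z ∈ P.roots, ‖z - c‖ ≤ ρ) (z : ℂ) (hz : ‖z - c‖ ≤ Real.sqrt 2 * ρ) :
    ‖P.eval z‖ ≤ ‖P.leadingCoeff‖ * ((1 + Real.sqrt 2) * ρ) ^ P.natDegree := by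
  have hcard : P.roots.toList.length = P.natDegree := by
    rw [Multiset.length_toList]
    exact Polynomial.splits_iff_card_roots.1 (IsAlgClosed.splits P)
  rw [norm_eval_eq_prod]
  apply mul_le_mul_of_nonneg_left _ (norm_nonneg _)
  have hi : ∀ i ∈ (Finset.univ : Finset (Fin P.roots.toList.length)),
      ‖z - P.roots.toList[i.1]‖ ≤ (1 + Real.sqrt 2) * ρ := by
    intro i _
    have hmem : P.roots.toList[i.1] ∈ P.roots := by
      rw [← Multiset.mem_toList]
      exact List.getElem_mem _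
    have h3 : z - P.roots.toList[i.1] = (z - c) - (P.roots.toList[i.1] - c) := by ring
    rw [h3]
    have h4 := norm_sub_le (z - c) (P.roots.toList[i.1] - c)
    have h5 := hroots _ hmem
    linarith
  have h6 : ∏ i : Fin P.roots.toList.length, ‖z - P.roots.toList[i.1]‖ ≤
      ∏ _i : Fin P.roots.toList.length, (1 + Real.sqrt 2) * ρ :=
    Finset.prod_le_prod (fun i _ => norm_nonneg _) hi
  rw [Finset.prod_const, Finset.card_univ, Fintype.card_fin] at h6
  have h7 : ((1 + Real.sqrt 2) * ρ) ^ P.roots.toList.length =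
      ((1 + Real.sqrt 2) * ρ) ^ P.natDegree := congrArg _ hcard
  rw [← h7]
  exact h6

variable {H : Type*} [NormedAddCommGroup H] [InnerProductSpace ℂ H]

/-- Crouzeix's inequality with constant `2` for polynomials with clustered roots. -/
theorem crouzeix_clustered [Nontrivial H] (A : H →L[ℂ] H) (P : ℂ[X]) (c : ℂ) (ρ M : ℝ)
    (hroots : ∀ z ∈ P.roots, ‖z - c‖ ≤ ρ)
    (hD : ∀ z : ℂ, ‖z - c‖ ≤ Real.sqrt 2 * ρ → ‖P.eval z‖ ≤ M)
    (hW : ∀ x : H, ‖x‖ = 1 → ‖P.eval (inner ℂ x (A x))‖ ≤ M) :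
    (∀ y : H, ‖y‖ = 1 → ‖inner ℂ y (aeval A P y)‖ ≤ M) ∧ ‖aeval A P‖ ≤ 2 * M :=
  crouzeix_convex_level A P M (clustered_sublevel_convex P c ρ M hroots hD) hW

end Vale.Agent.H33
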