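import Mathlib
import Vale.Agent.H33.Cassini

namespace Vale.Agent.H33

open Polynomial

variable {H : Type*} [NormedAddCommGroup H] [InnerProductSpace ℂ H]

/-- Crouzeix-type bound for quadratic polynomials above twice the critical value. -/
theorem crouzeix_quadratic [Nontrivial H] (A : H →L[ℂ] H) (a b c : ℂ) (ha : a ≠ 0) (M : ℝ)
    (hW : ∀ x : H, ‖x‖ = 1 →
      ‖a * (inner ℂ x (A x)) ^ 2 + b * inner ℂ x (A x) + c‖ ≤ M)
    (hM : 2 * ‖c - b ^ 2 / (4 * a)‖ ≤ M) :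
    ‖a • (A * A) + b • A + c • (1 : H →L[ℂ] H)‖ ≤ 2 * M := by
  have heval : ∀ z : ℂ, (C a * X ^ 2 + C b * X + C c : ℂ[X]).eval z = a * z ^ 2 + b * z + c := by
    intro z
    simp
  have hconv : Convex ℝ {z : ℂ | ‖(C a * X ^ 2 + C b * X + C c : ℂ[X]).eval z‖ ≤ M} := by
    have h := quadratic_sublevel_convex a b c ha M hM
    have hset : {z : ℂ | ‖(C a * X ^ 2 + C b * X + C c : ℂ[X]).eval z‖ ≤ M}
        = {z : ℂ | ‖a * z ^ 2 + b * z + c‖ ≤ M} := by
      ext z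
      show ‖(C a * X ^ 2 + C b * X + C c : ℂ[X]).eval z‖ ≤ M ↔ ‖a * z ^ 2 + b * z + c‖ ≤ M
      rw [heval]
    rw [hset]
    exact h
  have hW' : ∀ x : H, ‖x‖ = 1 →
      ‖(C a * X ^ 2 + C b * X + C c : ℂ[X]).eval (inner ℂ x (A x))‖ ≤ M := by
    intro x hx
    rw [heval]
    exact hW x hx
  have hmain := (crouzeix_convex_level A (C a * X ^ 2 + C b * X + C c) M hconv hW').2
  have haeval : aeval A (C a * X ^ 2 + C b * X + C c : ℂ[X])
      = a • (A * A) + b • A + c • (1 : H →L[ℂ] H) := by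
    rw [map_add, map_add, map_mul, map_mul, aeval_C, aeval_C, aeval_C, map_pow, aeval_X, sq,
      ← Algebra.smul_def, ← Algebra.smul_def, Algebra.algebraMap_eq_smul_one]
  rw [haeval] at hmain
  exact hmain

end Vale.Agent.H33
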